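import Vale.Agent.P181.H421.Defs

set_option autoImplicit false

open scoped TensorProduct

universe u

namespace Vale.Agent.P181Z

open Vale.Agent.P181 Vale.Agent.P181.H421

/-- For every finite-dimensional complex vector space `V`, the canonical (Foulkes-Howe) map
`Sym^a(Sym^b V) → Sym^b(Sym^a V)` (arrange the `ab` vectors in `a` rows of length `b`, permute
within rows, multiply along columns) commutes with the linear endomorphisms of `V` and is
surjective. -/
def CanonicalSurjective (a b : ℕ) : Prop :=
  ∀ (V : Type u) [AddCommGroup V] [Module ℂ V] [FiniteDimensional ℂ V],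
    ∃ Ψ : PP a b V →ₗ[ℂ] PP b a V,
      (∀ v : Fin a → Fin b → V, Ψ (prodRows v) = sumCols v) ∧ Commutes Ψ ∧ Function.Surjective Ψ

end Vale.Agent.P181Z
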