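import Vale.Agent.P181.R2.H780.Chain

set_option autoImplicit false

/-!
# The canonical kernel just below the square of `a - 1`

Let `a = k + 1` and `b + c = k ^ 2` with `1 ≤ c ≤ k - 1`. A symmetric `a`-linear form `F` on forms
of degree `b` which vanishes on the diagonal at products of linear forms satisfies
`F(θ ^ b, θ ^ (2 c - 1) P, ...) = 0`.
-/

open Polynomial Finset

namespace Vale.Agent.P181Z

open Vale.Agent.P181 Vale.Agent.P181.H780

variable {A : Type*} [CommRing A] [Algebra ℂ A]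

/-- The form vanishes if all arguments but the first are multiples of one `k`-th power. -/
def Star (L : Submodule ℂ A) (k b : ℕ) (F : MultilinearMap ℂ (fun _ : Fin (k + 1) => A) ℂ) :
    Prop :=
  ∀ h ∈ L ^ b, ∀ ξ ∈ L, ∀ P : Fin k → A, (∀ i, P i ∈ L ^ (b - k)) →
    F.curryLeft h (fun i => ξ ^ k * P i) = 0

theorem star_of_noKer {L : Submodule ℂ A} (hL : HasRoots L) {k b : ℕ} (hk : 0 < k) (hb : k ≤ b)
    (hker : NoKer L k (b - k)) (F : MultilinearMap ℂ (fun _ : Fin (k + 1) => A) ℂ)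
    (hs : IsSymm F) (hK : IsK L b F) : Star L k b F := by
  intro h hh ξ hξ P hP
  have h3 := hker (mulArg (F.curryLeft h) (fun _ => ξ ^ k))
    ((hs.curryLeft _).mulArg_const _) ?_ P hP
  · rwa [mulArg_apply] at h3
  · intro m hm hmL
    rw [mulArg_apply]
    have h4 := lemmaC hL hk F hs hK hξ m hmL 0 (by simp) (by
      rw [Multiset.card_zero, hm]; omega) h (by
      have h5 : k + m.card = b := by omega
      rw [h5]; exact hh)
    simpa only [Multiset.prod_zero, mul_one] using h4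

/-- The form with the first two arguments singled out. -/
noncomputable def T2 {n : ℕ} (F : MultilinearMap ℂ (fun _ : Fin (n + 2) => A) ℂ) (x y : A)
    (Q : Fin n → A) : ℂ :=
  (F.curryLeft x).curryLeft y Q

lemma T2_eq {n : ℕ} (F : MultilinearMap ℂ (fun _ : Fin (n + 2) => A) ℂ) (x y : A)
    (Q : Fin n → A) : T2 F x y Q = F (Fin.cons x (Fin.cons y Q)) := rfl

lemma T2_cur {n : ℕ} (F : MultilinearMap ℂ (fun _ : Fin (n + 2) => A) ℂ) (x y : A)
    (Q : Fin n → A) : T2 F x y Q = F.curryLeft x (Fin.cons y Q) := rfl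

lemma T2_swap {n : ℕ} {F : MultilinearMap ℂ (fun _ : Fin (n + 2) => A) ℂ} (hs : IsSymm F)
    (x y : A) (Q : Fin n → A) : T2 F x y Q = T2 F y x Q := by
  rw [T2_eq, T2_eq, ← hs (Equiv.swap 0 1) (Fin.cons y (Fin.cons x Q))]
  congr 1
  funext i
  refine Fin.cases ?_ (fun i => ?_) i
  · rw [Equiv.swap_apply_left]
    rfl
  · refine Fin.cases ?_ (fun i => ?_) i
    · have h1 : (Fin.succ (0 : Fin (n + 1))) = 1 := rfl
      rw [h1, Equiv.swap_apply_right]
      rfl
    · rw [Equiv.swap_apply_of_ne_of_ne (Fin.succ_ne_zero _) (by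
        have h1 : (1 : Fin (n + 2)) = Fin.succ 0 := rfl
        rw [h1]
        exact fun h => Fin.succ_ne_zero _ (Fin.succ_injective _ h))]
      rfl

lemma T2_sum_left {n : ℕ} (F : MultilinearMap ℂ (fun _ : Fin (n + 2) => A) ℂ) (s : Finset ℕ)
    (c : ℕ → ℂ) (x : ℕ → A) (y : A) (Q : Fin n → A) :
    T2 F (∑ l ∈ s, c l • x l) y Q = ∑ l ∈ s, c l * T2 F (x l) y Q := by
  simp only [T2_cur, map_sum, map_smul, _root_.sum_apply, _root_.smul_apply, smul_eq_mul]

lemma T2_sum_right {n : ℕ} (F : MultilinearMap ℂ (fun _ : Fin (n + 2) => A) ℂ) (s : Finset ℕ)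
    (c : ℕ → ℂ) (x : A) (y : ℕ → A) (Q : Fin n → A) :
    T2 F x (∑ l ∈ s, c l • y l) Q = ∑ l ∈ s, c l * T2 F x (y l) Q := by
  simp only [T2, map_sum, map_smul, _root_.sum_apply, _root_.smul_apply, smul_eq_mul]

lemma T2_smul_left {n : ℕ} (F : MultilinearMap ℂ (fun _ : Fin (n + 2) => A) ℂ) (c : ℂ)
    (x y : A) (Q : Fin n → A) : T2 F (c • x) y Q = c * T2 F x y Q := by
  simp only [T2_cur, map_smul, _root_.smul_apply, smul_eq_mul]

lemma T2_smul_right {n : ℕ} (F : MultilinearMap ℂ (fun _ : Fin (n + 2) => A) ℂ) (c : ℂ)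
    (x y : A) (Q : Fin n → A) : T2 F x (c • y) Q = c * T2 F x y Q := by
  simp only [T2, map_smul, _root_.smul_apply, smul_eq_mul]

lemma exists_poly2 {n : ℕ} (F : MultilinearMap ℂ (fun _ : Fin (n + 2) => A) ℂ)
    {d₀ d₁ d : ℕ} {u₀ u₁ : ℂ → A} {u : Fin n → ℂ → A} (h₀ : IsCurve d₀ u₀) (h₁ : IsCurve d₁ u₁)
    (h : ∀ i, IsCurve d (u i)) :
    ∃ p : ℂ[X], p.natDegree ≤ d₀ + d₁ + n * d ∧
      ∀ s, p.eval s = T2 F (u₀ s) (u₁ s) (fun i => u i s) := by
  obtain ⟨p, hp1, hp2⟩ := exists_poly F (Fin.cons u₀ (Fin.cons u₁ u))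
    (Fin.cons d₀ (Fin.cons d₁ (fun _ => d))) (by
      intro i
      refine Fin.cases ?_ (fun i => ?_) i
      · exact h₀
      · refine Fin.cases ?_ (fun i => ?_) i
        · exact h₁
        · exact h i)
  refine ⟨p, ?_, fun s => ?_⟩
  · refine hp1.trans (le_of_eq ?_)
    rw [Fin.sum_univ_succ, Fin.sum_univ_succ]
    simp only [Fin.cons_zero, Fin.cons_succ, Finset.sum_const, Finset.card_univ,
      Fintype.card_fin, smul_eq_mul]
    ring
  · rw [hp2, T2_eq]
    congr 1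
    funext i
    refine Fin.cases ?_ (fun i => ?_) i
    · rfl
    · refine Fin.cases ?_ (fun i => ?_) i
      · rfl
      · rfl

lemma expand_pow (x y : A) (t : ℂ) (M : ℕ) :
    x ^ M = ∑ l ∈ range (M + 1), (((M.choose l : ℂ) * (-1) ^ l * t ^ l) •
      ((x + t • y) ^ (M - l) * y ^ l)) := by
  have h4 : x = (-t) • y + (x + t • y) := by
    rw [neg_smul]; abel
  calc x ^ M = ((-t) • y + (x + t • y)) ^ M := by rw [← h4]
    _ = _ := by
      rw [add_pow]
      apply Finset.sum_congr rfl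
      intro l _
      simp only [Algebra.smul_def, map_natCast, map_pow, map_mul, map_neg, map_one]
      rw [neg_mul, neg_pow]
      ring_nf

lemma star_left {L : Submodule ℂ A} {n b : ℕ}
    {F : MultilinearMap ℂ (fun _ : Fin (n + 2) => A) ℂ} (hS : Star L (n + 1) b F)
    {h : A} (hh : h ∈ L ^ b) {ξ : A} (hξ : ξ ∈ L) {P₀ : A} (hP₀ : P₀ ∈ L ^ (b - (n + 1)))
    {P : Fin n → A} (hP : ∀ i, P i ∈ L ^ (b - (n + 1))) :
    T2 F h (ξ ^ (n + 1) * P₀) (fun i => ξ ^ (n + 1) * P i) = 0 := by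
  have h1 := hS h hh ξ hξ (Fin.cons P₀ P) (by
    intro i
    refine Fin.cases ?_ (fun i => ?_) i
    · exact hP₀
    · exact hP i)
  rw [← h1, T2, MultilinearMap.curryLeft_apply]
  congr 1
  funext i
  refine Fin.cases ?_ (fun i => ?_) i
  · rfl
  · rfl

/-- The two orders of vanishing along a line exceed the degree. -/
theorem line_zero {L : Submodule ℂ A} {n b c : ℕ} (hbc : b + c = (n + 1) ^ 2) (hc : 1 ≤ c)
    (hcn : c ≤ n) {F : MultilinearMap ℂ (fun _ : Fin (n + 2) => A) ℂ} (hs : IsSymm F)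
    (hS : Star L (n + 1) b F) {θ ζ : A} (hθ : θ ∈ L) (hζ : ζ ∈ L) {P₀ : A}
    (hP₀ : P₀ ∈ L ^ (b - (n + c))) {P : Fin n → A} (hP : ∀ i, P i ∈ L ^ (b - (n + 1))) :
    T2 F (θ ^ b) (ζ ^ (n + c) * P₀) (fun i => (θ + ζ) ^ (n + 1) * P i) = 0 := by
  have hsq : (n + 1) ^ 2 = n * (n + 1) + (n + 1) := by ring
  have hnn : n ≤ n * n := Nat.le_mul_self n
  have hnn2 : n * (n + 1) = n * n + n := by ring
  have hMb : n + c ≤ b := by omega
  set M := n + c with hM
  have hcur : ∀ i : Fin n, IsCurve (n + 1) (fun s : ℂ => (θ + s • ζ) ^ (n + 1) * P i) :=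
    fun i => isCurve_pow θ ζ _ _
  have hη : ∀ s : ℂ, θ + s • ζ ∈ L := fun s => L.add_mem hθ (L.smul_mem _ hζ)
  have hsec : ζ ^ M * P₀ ∈ L ^ b := by
    have h1 : b = M + (b - M) := by omega
    rw [h1, pow_add]
    exact Submodule.mul_mem_mul (Submodule.pow_mem_pow _ hζ _) hP₀
  obtain ⟨p, -, hp⟩ := exists_poly2 F (isCurve_const (θ ^ b)) (isCurve_const (ζ ^ M * P₀)) hcur
  have hq : ∀ l : ℕ, ∃ q : ℂ[X], ∀ s, q.eval s = T2 F ((θ + s • ζ) ^ (b - l) * ζ ^ l)
      (ζ ^ M * P₀) (fun i => (θ + s • ζ) ^ (n + 1) * P i) := by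
    intro l
    obtain ⟨q, -, hq⟩ := exists_poly2 F (isCurve_pow θ ζ (ζ ^ l) (b - l))
      (isCurve_const (ζ ^ M * P₀)) hcur
    exact ⟨q, hq⟩
  choose q hq using hq
  have hr : ∀ l : ℕ, ∃ r : ℂ[X], r.natDegree ≤ (M - l) + n * (n + 1) ∧ ∀ s, r.eval s =
      T2 F (θ ^ b) ((θ + s • ζ) ^ (M - l) * (θ ^ l * P₀))
        (fun i => (θ + s • ζ) ^ (n + 1) * P i) := by
    intro l
    obtain ⟨r, hr1, hr2⟩ := exists_poly2 F (isCurve_const (θ ^ b))
      (isCurve_pow θ ζ (θ ^ l * P₀) (M - l)) hcur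
    exact ⟨r, by omega, hr2⟩
  choose r hr1 hr2 using hr
  have hq0 : ∀ l, l ≤ b - (n + 1) → q l = 0 := by
    intro l hl
    apply Polynomial.funext
    intro s
    rw [hq, eval_zero, T2_swap hs]
    have h1 : (θ + s • ζ) ^ (b - l) * ζ ^ l =
        (θ + s • ζ) ^ (n + 1) * ((θ + s • ζ) ^ (b - l - (n + 1)) * ζ ^ l) := by
      have h2 : b - l = (n + 1) + (b - l - (n + 1)) := by omega
      conv_lhs => rw [h2, pow_add]
      ring
    rw [h1]
    refine star_left hS hsec (hη s) ?_ hP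
    have h3 : b - (n + 1) = (b - l - (n + 1)) + l := by omega
    rw [h3, pow_add]
    exact Submodule.mul_mem_mul (Submodule.pow_mem_pow _ (hη s) _) (Submodule.pow_mem_pow _ hζ _)
  have hr0 : ∀ l, l < c → r l = 0 := by
    intro l hl
    apply Polynomial.funext
    intro s
    rw [hr2, eval_zero]
    have h1 : (θ + s • ζ) ^ (M - l) * (θ ^ l * P₀) =
        (θ + s • ζ) ^ (n + 1) * ((θ + s • ζ) ^ (M - l - (n + 1)) * (θ ^ l * P₀)) := by
      have h2 : M - l = (n + 1) + (M - l - (n + 1)) := by omega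
      conv_lhs => rw [h2, pow_add]
      ring
    rw [h1]
    refine star_left hS (Submodule.pow_mem_pow _ hθ _) (hη s) ?_ hP
    have h3 : b - (n + 1) = (M - l - (n + 1)) + (l + (b - M)) := by omega
    rw [h3, pow_add, pow_add]
    exact Submodule.mul_mem_mul (Submodule.pow_mem_pow _ (hη s) _)
      (Submodule.mul_mem_mul (Submodule.pow_mem_pow _ hθ _) hP₀)
  have hpq : p = ∑ l ∈ range (b + 1), C ((b.choose l : ℂ) * (-1) ^ l) * X ^ l * q l := by
    apply Polynomial.funext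
    intro s
    rw [hp, expand_pow θ ζ s b, T2_sum_left, eval_finsetSum]
    apply Finset.sum_congr rfl
    intro l _
    rw [eval_mul, eval_mul, eval_C, eval_pow, eval_X, hq]
  have hdvd : X ^ (b - (n + 1) + 1) ∣ p := by
    rw [hpq]
    apply Finset.dvd_sum
    intro l _
    by_cases hl : l ≤ b - (n + 1)
    · rw [hq0 l hl, mul_zero]
      exact dvd_zero _
    · exact Dvd.dvd.mul_right (Dvd.dvd.mul_left (pow_dvd_pow X (by omega)) _) _
  have hpr : X ^ M * p = ∑ l ∈ range (M + 1), C ((M.choose l : ℂ) * (-1) ^ l) * r l := by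
    apply Polynomial.funext
    intro s
    rw [eval_mul, eval_pow, eval_X, hp, ← T2_smul_right, ← smul_mul_assoc, ← smul_pow,
      expand_pow (s • ζ) θ 1 M, Finset.sum_mul]
    simp only [smul_mul_assoc]
    rw [T2_sum_right, eval_finsetSum]
    apply Finset.sum_congr rfl
    intro l _
    rw [eval_mul, eval_C, hr2, one_pow, mul_one, one_smul, add_comm (s • ζ) θ, mul_assoc _ _ P₀]
  have hdeg : (X ^ M * p).natDegree ≤ (M - c) + n * (n + 1) := by
    rw [hpr]
    apply Polynomial.natDegree_sum_le_of_forall_le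
    intro l _
    by_cases hl : l < c
    · rw [hr0 l hl, mul_zero, natDegree_zero]
      exact Nat.zero_le _
    · refine (natDegree_C_mul_le _ _).trans ((hr1 l).trans ?_)
      omega
  have hp0 : p = 0 := by
    by_contra hne
    rw [natDegree_X_pow_mul _ hne] at hdeg
    have h1 := Polynomial.natDegree_le_of_dvd hdvd hne
    rw [natDegree_X_pow] at h1
    omega
  have h8 := hp 1
  rw [hp0, eval_zero] at h8
  simpa only [one_smul] using h8.symm

/-- All binary monomials in the second argument. -/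
theorem mono_zero {L : Submodule ℂ A} {n b c : ℕ} (hbc : b + c = (n + 1) ^ 2) (hc : 1 ≤ c)
    (hcn : c ≤ n) {F : MultilinearMap ℂ (fun _ : Fin (n + 2) => A) ℂ} (hs : IsSymm F)
    (hS : Star L (n + 1) b F) {θ ξ : A} (hθ : θ ∈ L) (hξ : ξ ∈ L) {P₀ : A}
    (hP₀ : P₀ ∈ L ^ (b - (n + c))) {P : Fin n → A} (hP : ∀ i, P i ∈ L ^ (b - (n + 1)))
    {j : ℕ} (hj : j ≤ n + c) :
    T2 F (θ ^ b) (θ ^ j * (ξ ^ (n + c - j) * P₀)) (fun i => ξ ^ (n + 1) * P i) = 0 := by
  set M := n + c with hM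
  let g : ℂ[X] := ∑ l ∈ range (M + 1), C ((M.choose l : ℂ) *
    T2 F (θ ^ b) (θ ^ l * (ξ ^ (M - l) * P₀)) (fun i => ξ ^ (n + 1) * P i)) * X ^ l
  have hg : C ((-1 : ℂ) ^ b) * X ^ b * g = 0 := by
    apply Polynomial.funext
    intro s
    have h1 := line_zero hbc hc hcn hs hS (θ := (-s) • θ) (ζ := s • θ + ξ) (L.smul_mem _ hθ)
      (L.add_mem (L.smul_mem _ hθ) hξ) hP₀ hP
    have h2 : (-s) • θ + (s • θ + ξ) = ξ := by
      rw [neg_smul]; abel
    have h3 : (s • θ + ξ) ^ M * P₀ = ∑ l ∈ range (M + 1),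
        ((M.choose l : ℂ) * s ^ l) • (θ ^ l * (ξ ^ (M - l) * P₀)) := by
      rw [add_pow, Finset.sum_mul]
      apply Finset.sum_congr rfl
      intro l _
      simp only [Algebra.smul_def, map_natCast, map_pow, map_mul]
      ring
    rw [h2, smul_pow, T2_smul_left, ← hM, h3, T2_sum_right] at h1
    rw [eval_zero, ← h1, eval_mul, eval_mul, eval_C, eval_pow, eval_X, neg_pow s]
    congr 1
    simp only [g, eval_finsetSum, eval_mul, eval_C, eval_pow, eval_X]
    apply Finset.sum_congr rfl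
    intro l _
    ring
  have hg0 : g = 0 := by
    rcases mul_eq_zero.1 hg with h | h
    · exfalso
      rcases mul_eq_zero.1 h with h | h
      · rw [C_eq_zero] at h
        exact pow_ne_zero _ (by norm_num) h
      · exact pow_ne_zero _ X_ne_zero h
    · exact h
  have h4 : g.coeff j = (M.choose j : ℂ) *
      T2 F (θ ^ b) (θ ^ j * (ξ ^ (M - j) * P₀)) (fun i => ξ ^ (n + 1) * P i) := by
    simp only [g, finsetSum_coeff, coeff_C_mul_X_pow]
    rw [Finset.sum_ite_eq, if_pos (Finset.mem_range.2 (by omega))]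
  rw [hg0, coeff_zero] at h4
  have h5 : (M.choose j : ℂ) ≠ 0 := by
    exact_mod_cast (Nat.choose_pos hj).ne'
  exact (mul_eq_zero.1 h4.symm).resolve_left h5

/-- The form vanishes if one argument is `θ ^ b` and another one is a multiple of `θ ^ m`. -/
def Nil (L : Submodule ℂ A) (b m : ℕ) {n : ℕ}
    (F : MultilinearMap ℂ (fun _ : Fin (n + 2) => A) ℂ) : Prop :=
  ∀ θ ∈ L, ∀ P₁ ∈ L ^ (b - m), ∀ P : Fin n → A, (∀ i, P i ∈ L ^ b) →
    T2 F (θ ^ b) (θ ^ m * P₁) P = 0

theorem nil_of_star {L : Submodule ℂ A} {n b c : ℕ} (hbc : b + c = (n + 1) ^ 2) (hc : 1 ≤ c)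
    (hcn : c ≤ n) {F : MultilinearMap ℂ (fun _ : Fin (n + 2) => A) ℂ} (hs : IsSymm F)
    (hS : Star L (n + 1) b F) : Nil L b (2 * c - 1) F := by
  intro θ hθ P₁ hP₁ P hP
  have hsq : (n + 1) ^ 2 = n * (n + 1) + (n + 1) := by ring
  have hnn : n ≤ n * n := Nat.le_mul_self n
  have hnn2 : n * (n + 1) = n * n + n := by ring
  have key := claimA L (mulArg (F.curryLeft (θ ^ b)) (Fin.cons (θ ^ (2 * c - 1)) (fun _ => 1)))
    (Fin.cons (b - (2 * c - 1)) (fun _ => b)) (Fin.cons (n + 1 - c) (fun _ => n + 1)) ?_ ?_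
    (Fin.cons P₁ P) (by
      intro i
      refine Fin.cases ?_ (fun i => ?_) i
      · exact hP₁
      · exact hP i)
  · rw [mulArg_apply] at key
    rw [← key, T2, MultilinearMap.curryLeft_apply]
    congr 1
    funext i
    refine Fin.cases ?_ (fun i => ?_) i
    · rfl
    · simp only [Fin.cons_succ, one_mul]
  · intro j
    refine Fin.cases ?_ (fun j => ?_) j
    · have h1 : Finset.Iic (0 : Fin (n + 1)) = {0} := by
        ext i
        simp
      rw [h1, Finset.sum_singleton]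
      simp only [Fin.cons_zero]
      omega
    · refine (Finset.sum_le_sum_of_subset (Finset.subset_univ _)).trans ?_
      rw [Fin.sum_univ_succ]
      simp only [Fin.cons_zero, Fin.cons_succ, Finset.sum_const, Finset.card_univ,
        Fintype.card_fin, smul_eq_mul]
      omega
  · intro ξ hξ Q hQ
    have h0 : Q 0 ∈ L ^ (b - (n + c)) := by
      have h1 := hQ 0
      simp only [Fin.cons_zero] at h1
      have h2 : b - (2 * c - 1) - (n + 1 - c) = b - (n + c) := by omega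
      rwa [h2] at h1
    have h3 := mono_zero hbc hc hcn hs hS hθ hξ h0 (P := fun i => Q i.succ)
      (fun i => by simpa only [Fin.cons_succ] using hQ i.succ) (j := 2 * c - 1) (by omega)
    have h4 : n + c - (2 * c - 1) = n + 1 - c := by omega
    rw [h4] at h3
    rw [mulArg_apply, ← h3, T2, MultilinearMap.curryLeft_apply (F.curryLeft _)]
    congr 1
    funext i
    refine Fin.cases ?_ (fun i => ?_) i
    · rfl
    · simp only [Fin.cons_succ, one_mul]

/-- **The kernel below the square.** -/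
theorem nil_of_isK {L : Submodule ℂ A} (hL : HasRoots L) {n b c : ℕ}
    (hbc : b + c = (n + 1) ^ 2) (hc : 1 ≤ c) (hcn : c ≤ n)
    {F : MultilinearMap ℂ (fun _ : Fin (n + 2) => A) ℂ} (hs : IsSymm F) (hK : IsK L b F) :
    Nil L b (2 * c - 1) F := by
  have hsq : (n + 1) ^ 2 = n ^ 2 + 2 * n + 1 := by ring
  refine nil_of_star hbc hc hcn hs (star_of_noKer hL (Nat.succ_pos n) (by omega) ?_ F hs hK)
  exact core2 hL (n + 1) (b - (n + 1)) (by rw [Nat.add_sub_cancel]; omega)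

end Vale.Agent.P181Z
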