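import Vale.Agent.P181Z.Near1
import Mathlib.Data.Nat.Choose.Multinomial

set_option autoImplicit false

/-!
# Consequences of nilpotency: the odd case and the last row
-/

open Polynomial Finset

namespace Vale.Agent.P181Z

open Vale.Agent.P181 Vale.Agent.P181.H780

variable {A : Type*} [CommRing A] [Algebra ℂ A]

/-- A form which vanishes at powers of linear forms vanishes. -/
lemma zero_of_pow (L : Submodule ℂ A) (b : ℕ) {a : ℕ} :
    ∀ F : MultilinearMap ℂ (fun _ : Fin a => A) ℂ,
      (∀ θ : Fin a → A, (∀ i, θ i ∈ L) → F (fun i => θ i ^ b) = 0) →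
      ∀ P : Fin a → A, (∀ i, P i ∈ L ^ b) → F P = 0 := by
  induction a with
  | zero =>
    intro F h P _
    have h1 := h (fun i => i.elim0) (fun i => i.elim0)
    rw [← h1]
    congr 1
    funext i
    exact i.elim0
  | succ a ih =>
    intro F h P hP
    let φ : A →ₗ[ℂ] ℂ := F.toLinearMap P 0
    have hφ : ∀ z, φ z = F.curryLeft z (fun i => P i.succ) := by
      intro z
      change F (Function.update P 0 z) = _
      rw [MultilinearMap.curryLeft_apply]
      congr 1
      funext i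
      refine Fin.cases ?_ (fun i => ?_) i
      · rw [Function.update_self, Fin.cons_zero]
      · rw [Function.update_of_ne (Fin.succ_ne_zero i), Fin.cons_succ]
    have hle : L ^ b ≤ LinearMap.ker φ := by
      refine (pow_le_span_pow L _).trans ?_
      rw [Submodule.span_le]
      rintro _ ⟨ζ, hζ, rfl⟩
      simp only [SetLike.mem_coe, LinearMap.mem_ker]
      rw [hφ]
      refine ih (F.curryLeft (ζ ^ b)) ?_ _ (fun i => hP i.succ)
      intro θ hθ
      have h1 := h (Fin.cons ζ θ) (by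
        intro i
        refine Fin.cases ?_ (fun i => ?_) i
        · exact hζ
        · exact hθ i)
      rw [← h1, MultilinearMap.curryLeft_apply]
      congr 1
      funext i
      refine Fin.cases ?_ (fun i => ?_) i
      · rfl
      · rfl
    have h2 := hle (hP 0)
    rw [LinearMap.mem_ker] at h2
    rw [← h2]
    change _ = F (Function.update P 0 (P 0))
    rw [Function.update_eq_self]

lemma shift_right {L : Submodule ℂ A} {n b : ℕ}
    {F : MultilinearMap ℂ (fun _ : Fin (n + 2) => A) ℂ} (hN : Nil L b 1 F) {θ η : A}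
    (hθ : θ ∈ L) (hη : η ∈ L) {P : Fin n → A} (hP : ∀ i, P i ∈ L ^ b) :
    T2 F (θ ^ b) ((θ + η) ^ b) P = T2 F (θ ^ b) (η ^ b) P := by
  have h3 : (θ + η) ^ b = ∑ l ∈ range (b + 1), (b.choose l : ℂ) • (θ ^ l * η ^ (b - l)) := by
    rw [add_pow]
    apply Finset.sum_congr rfl
    intro l _
    simp only [Algebra.smul_def, map_natCast]
    ring
  rw [h3, T2_sum_right, Finset.sum_range_succ', Finset.sum_eq_zero, zero_add, Nat.choose_zero_right,
    Nat.cast_one, one_mul, pow_zero, one_mul, Nat.sub_zero]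
  intro l hl
  rw [Finset.mem_range] at hl
  have h1 : θ ^ (l + 1) * η ^ (b - (l + 1)) = θ ^ 1 * (θ ^ l * η ^ (b - (l + 1))) := by ring
  rw [h1, hN θ hθ _ _ P hP, mul_zero]
  have h2 : b - 1 = l + (b - (l + 1)) := by omega
  rw [h2, pow_add]
  exact Submodule.mul_mem_mul (Submodule.pow_mem_pow _ hθ _) (Submodule.pow_mem_pow _ hη _)

/-- For odd degree a symmetric form with nilpotency order one vanishes. -/
theorem zero_of_nil_one {L : Submodule ℂ A} {n b : ℕ} (hb : Odd b)
    {F : MultilinearMap ℂ (fun _ : Fin (n + 2) => A) ℂ} (hs : IsSymm F) (hN : Nil L b 1 F) :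
    ∀ P : Fin (n + 2) → A, (∀ i, P i ∈ L ^ b) → F P = 0 := by
  refine zero_of_pow L b F ?_
  intro θ hθ
  have hP : ∀ i : Fin n, θ i.succ.succ ^ b ∈ L ^ b := fun i => Submodule.pow_mem_pow _ (hθ _) _
  set P : Fin n → A := fun i => θ i.succ.succ ^ b with hPdef
  set x := θ 0 with hx
  set y := θ 1 with hy
  have hxL : x ∈ L := hθ 0
  have hyL : y ∈ L := hθ 1
  have h0 : F (fun i => θ i ^ b) = T2 F (x ^ b) (y ^ b) P := by
    rw [T2_eq]
    congr 1
    funext i
    refine Fin.cases ?_ (fun i => ?_) i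
    · rfl
    · refine Fin.cases ?_ (fun i => ?_) i
      · rfl
      · rfl
  have hneg : ∀ z : A, (-z) ^ b = (-1 : ℂ) • z ^ b := by
    intro z
    rw [hb.neg_pow, neg_one_smul]
  have h1 : T2 F (x ^ b) ((x + y) ^ b) P = T2 F (x ^ b) (y ^ b) P := shift_right hN hxL hyL hP
  have h2 : T2 F ((x + y) ^ b) (((x + y) + (-y)) ^ b) P = T2 F ((x + y) ^ b) ((-y) ^ b) P :=
    shift_right hN (L.add_mem hxL hyL) (L.neg_mem hyL) hP
  have h3 : T2 F (y ^ b) ((y + x) ^ b) P = T2 F (y ^ b) (x ^ b) P := shift_right hN hyL hxL hP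
  rw [add_neg_cancel_right, hneg, T2_smul_right, T2_swap hs ((x + y) ^ b) (x ^ b),
    T2_swap hs ((x + y) ^ b) (y ^ b), h1, add_comm x y, h3, T2_swap hs (y ^ b) (x ^ b)] at h2
  rw [h0]
  linear_combination (1 / 2 : ℂ) * h2

/-- **The canonical kernel of odd degree `a` on forms of degree `a (a - 2)` is zero.** -/
theorem noKer_odd {L : Submodule ℂ A} (hL : HasRoots L) {n b : ℕ} (hn : 1 ≤ n)
    (hb : b + 1 = (n + 1) ^ 2) (hodd : Odd n) : NoKer L (n + 2) b := by
  intro F hs hK
  have h1 := nil_of_isK hL hb le_rfl hn hs hK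
  refine zero_of_nil_one ?_ hs h1
  have h2 : Even (b + 1) := by
    rw [hb]
    exact (hodd.add_one).pow_of_ne_zero (by norm_num)
  exact Nat.not_even_iff_odd.1 (Nat.even_add_one.1 h2)

/-- Nilpotency for any two arguments. -/
lemma nil_any {L : Submodule ℂ A} {n b m : ℕ}
    {F : MultilinearMap ℂ (fun _ : Fin (n + 2) => A) ℂ} (hs : IsSymm F) (hN : Nil L b m F)
    {θ : A} (hθ : θ ∈ L) {P₁ : A} (hP₁ : P₁ ∈ L ^ (b - m)) (R : Fin (n + 2) → A)
    (hR : ∀ i, R i ∈ L ^ b) {i j : Fin (n + 2)} (hij : i ≠ j) (hi : R i = θ ^ b)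
    (hj : R j = θ ^ m * P₁) : F R = 0 := by
  let σ : Equiv.Perm (Fin (n + 2)) := (Equiv.swap 1 (Equiv.swap 0 i j)).trans (Equiv.swap 0 i)
  have hne : Equiv.swap 0 i j ≠ 0 := by
    intro h
    apply hij
    have h1 := congrArg (Equiv.swap 0 i) h
    rw [Equiv.swap_apply_self, Equiv.swap_apply_left] at h1
    exact h1.symm
  have hσ0 : σ 0 = i := by
    simp only [σ, Equiv.trans_apply]
    rw [Equiv.swap_apply_of_ne_of_ne (Fin.zero_ne_one) hne.symm, Equiv.swap_apply_left]
  have hσ1 : σ 1 = j := by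
    simp only [σ, Equiv.trans_apply]
    rw [Equiv.swap_apply_left, Equiv.swap_apply_self]
  have h1 := hN θ hθ P₁ hP₁ (fun l => R (σ l.succ.succ)) (fun l => hR _)
  rw [← hs σ R, ← h1, T2_eq]
  congr 1
  funext l
  refine Fin.cases ?_ (fun l => ?_) l
  · rw [hσ0, hi]
    rfl
  · refine Fin.cases ?_ (fun l => ?_) l
    · have h2 : (Fin.succ (0 : Fin (n + 1))) = 1 := rfl
      rw [h2, hσ1, hj]
      rfl
    · rfl

lemma prod_pow_mem (L : Submodule ℂ A) {ι : Type*} (s : Finset ι) (f : ι → A)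
    (hf : ∀ i ∈ s, f i ∈ L) (r : ι → ℕ) : ∏ i ∈ s, f i ^ r i ∈ L ^ (∑ i ∈ s, r i) := by
  classical
  induction s using Finset.induction with
  | empty =>
    rw [Finset.prod_empty, Finset.sum_empty, pow_zero, Submodule.mem_one]
    exact ⟨1, map_one _⟩
  | insert i s hi ih =>
    rw [Finset.prod_insert hi, Finset.sum_insert hi, pow_add]
    exact Submodule.mul_mem_mul (Submodule.pow_mem_pow _ (hf i (Finset.mem_insert_self i s)) _)
      (ih (fun j hj => hf j (Finset.mem_insert_of_mem hj)))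

/-- High powers of a combination of the other arguments are killed. -/
lemma comb_zero {L : Submodule ℂ A} {n b m : ℕ} (hm : 1 ≤ m)
    {F : MultilinearMap ℂ (fun _ : Fin (n + 2) => A) ℂ} (hs : IsSymm F) (hN : Nil L b m F)
    (θ : Fin (n + 2) → A) (hθ : ∀ j, θ j ∈ L) (j₀ : Fin (n + 2)) (s : Fin (n + 2) → ℂ)
    {l : ℕ} (hl : (n + 1) * (m - 1) < l) (hlb : l ≤ b) {z : A} (hz : z ∈ L ^ (b - l)) :
    F (Function.update (fun j => θ j ^ b) j₀
      ((∑ j ∈ Finset.univ.erase j₀, s j • θ j) ^ l * z)) = 0 := by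
  classical
  let φ : A →ₗ[ℂ] ℂ := F.toLinearMap (fun j => θ j ^ b) j₀
  change φ _ = 0
  rw [Finset.sum_pow_eq_sum_piAntidiag, Finset.sum_mul, map_sum]
  apply Finset.sum_eq_zero
  intro r hr
  rw [Finset.mem_piAntidiag] at hr
  have hex : ∃ j ∈ Finset.univ.erase j₀, m ≤ r j := by
    by_contra hcon
    push Not at hcon
    have h1 : ∑ j ∈ Finset.univ.erase j₀, r j ≤ ∑ j ∈ Finset.univ.erase j₀, (m - 1) :=
      Finset.sum_le_sum (fun j hj => by have := hcon j hj; omega)
    rw [Finset.sum_const, Finset.card_erase_of_mem (Finset.mem_univ _), Finset.card_univ,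
      Fintype.card_fin, smul_eq_mul, hr.1] at h1
    have h2 : n + 2 - 1 = n + 1 := rfl
    rw [h2] at h1
    omega
  obtain ⟨j, hj, hmj⟩ := hex
  have hsθ : ∀ i, s i • θ i ∈ L := fun i => L.smul_mem _ (hθ i)
  have hsum : r j + ∑ i ∈ (Finset.univ.erase j₀).erase j, r i = l := by
    rw [Finset.add_sum_erase _ _ hj]
    exact hr.1
  let P₁ : A := θ j ^ (r j - m) * ((∏ i ∈ (Finset.univ.erase j₀).erase j, (s i • θ i) ^ r i) * z)
  have hP₁ : P₁ ∈ L ^ (b - m) := by
    have h1 : b - m = (r j - m) + ((∑ i ∈ (Finset.univ.erase j₀).erase j, r i) + (b - l)) := by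
      omega
    rw [h1, pow_add, pow_add]
    exact Submodule.mul_mem_mul (Submodule.pow_mem_pow _ (hθ j) _)
      (Submodule.mul_mem_mul (prod_pow_mem L _ _ (fun i _ => hsθ i) r) hz)
  have h2 : (Nat.multinomial (Finset.univ.erase j₀) r : A) *
      (∏ i ∈ Finset.univ.erase j₀, (s i • θ i) ^ r i) * z =
      ((Nat.multinomial (Finset.univ.erase j₀) r : ℂ) * s j ^ r j) • (θ j ^ m * P₁) := by
    rw [← Finset.mul_prod_erase _ _ hj]
    have h3 : θ j ^ r j = θ j ^ m * θ j ^ (r j - m) := by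
      rw [← pow_add]
      congr 1
      omega
    simp only [P₁]
    rw [smul_pow, h3]
    simp only [Algebra.smul_def, map_natCast, map_mul, map_pow]
    ring
  rw [h2, map_smul]
  have h4 : φ (θ j ^ m * P₁) = 0 := by
    have hjj : j ≠ j₀ := Finset.ne_of_mem_erase hj
    refine nil_any hs hN (hθ j) hP₁ (Function.update (fun j => θ j ^ b) j₀ (θ j ^ m * P₁)) ?_ hjj
      (Function.update_of_ne hjj _ _) (Function.update_self _ _ _)
    intro i
    by_cases hi : i = j₀
    · subst hi
      rw [Function.update_self]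
      have h5 : b = m + (b - m) := by omega
      rw [h5, pow_add]
      exact Submodule.mul_mem_mul (Submodule.pow_mem_pow _ (hθ j) _) hP₁
    · rw [Function.update_of_ne hi]
      exact Submodule.pow_mem_pow _ (hθ i) _
  rw [h4, smul_zero]

/-- **The last row.** If the form has weight `lam` for a scaling which fixes a linearly dependent
family `u`, and `lam` is small, then the form vanishes. -/
theorem weight_zero {L : Submodule ℂ A} {n b m : ℕ} (hm : 1 ≤ m)
    {F : MultilinearMap ℂ (fun _ : Fin (n + 2) => A) ℂ} (hs : IsSymm F) (hN : Nil L b m F)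
    (u w : Fin (n + 2) → A) (hu : ∀ j, u j ∈ L) (hw : ∀ j, w j ∈ L) (j₀ : Fin (n + 2))
    (s : Fin (n + 2) → ℂ) (hrel : u j₀ = ∑ j ∈ Finset.univ.erase j₀, s j • u j) {lam : ℕ}
    (hsc : ∀ τ : ℂ, τ ≠ 0 → F (fun j => (u j + τ • w j) ^ b) =
      τ ^ lam * F (fun j => (u j + w j) ^ b))
    (hlt : lam + (n + 1) * (m - 1) < b) : F (fun j => (u j + w j) ^ b) = 0 := by
  classical
  set N := (n + 1) * (m - 1) with hNdef
  set y₀ : A := ∑ j ∈ Finset.univ.erase j₀, s j • u j with hy₀
  set y₁ : A := ∑ j ∈ Finset.univ.erase j₀, s j • w j with hy₁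
  set z : A := w j₀ - y₁ with hz
  have hzL : z ∈ L := L.sub_mem (hw j₀) (L.sum_mem (fun j _ => L.smul_mem _ (hw j)))
  have hy : ∀ τ : ℂ, ∑ j ∈ Finset.univ.erase j₀, s j • (u j + τ • w j) = y₀ + τ • y₁ := by
    intro τ
    rw [hy₀, hy₁, Finset.smul_sum, ← Finset.sum_add_distrib]
    apply Finset.sum_congr rfl
    intro j _
    rw [smul_add, smul_comm]
  have hq : ∀ l : ℕ, ∃ q : ℂ[X], ∀ τ : ℂ, q.eval τ =
      F (Function.update (fun j => (u j + τ • w j) ^ b) j₀ ((y₀ + τ • y₁) ^ l * z ^ (b - l))) := by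
    intro l
    obtain ⟨q, -, hq⟩ := exists_poly F
      (fun j τ => if j = j₀ then (y₀ + τ • y₁) ^ l * z ^ (b - l) else (u j + τ • w j) ^ b * 1)
      (fun j => if j = j₀ then l else b) (by
        intro j
        by_cases hj : j = j₀
        · simp only [hj, if_true]
          exact isCurve_pow _ _ _ _
        · simp only [hj, if_false]
          exact isCurve_pow _ _ _ _)
    refine ⟨q, fun τ => ?_⟩
    rw [hq]
    congr 1
    funext j
    by_cases hj : j = j₀
    · subst hj
      rw [if_pos rfl, Function.update_self]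
    · rw [if_neg hj, Function.update_of_ne hj, mul_one]
  choose q hq using hq
  have hq0 : ∀ l, N < l → l ≤ b → q l = 0 := by
    intro l h1 h2
    apply Polynomial.funext
    intro τ
    rw [hq, eval_zero, ← hy]
    exact comb_zero hm hs hN (fun j => u j + τ • w j)
      (fun j => L.add_mem (hu j) (L.smul_mem _ (hw j))) j₀ s h1 h2 (Submodule.pow_mem_pow _ hzL _)
  set f := F (fun j => (u j + w j) ^ b) with hf
  have hid : X * (C f * X ^ lam) =
      X * ∑ l ∈ range (b + 1), C (b.choose l : ℂ) * X ^ (b - l) * q l := by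
    apply Polynomial.funext
    intro τ
    rw [eval_mul, eval_mul (p := X), eval_X]
    by_cases hτ : τ = 0
    · rw [hτ, zero_mul, zero_mul]
    congr 1
    rw [eval_mul, eval_C, eval_pow, eval_X, mul_comm f, ← hsc τ hτ, eval_finsetSum]
    let φ : A →ₗ[ℂ] ℂ := F.toLinearMap (fun j => (u j + τ • w j) ^ b) j₀
    have h1 : F (fun j => (u j + τ • w j) ^ b) = φ ((u j₀ + τ • w j₀) ^ b) := by
      change _ = F (Function.update _ j₀ _)
      rw [Function.update_eq_self]
    have h2 : u j₀ + τ • w j₀ = (y₀ + τ • y₁) + τ • z := by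
      rw [hrel, hz, smul_sub]
      abel
    have h3 : ((y₀ + τ • y₁) + τ • z) ^ b = ∑ l ∈ range (b + 1),
        ((b.choose l : ℂ) * τ ^ (b - l)) • ((y₀ + τ • y₁) ^ l * z ^ (b - l)) := by
      rw [add_pow]
      apply Finset.sum_congr rfl
      intro l _
      rw [smul_pow]
      simp only [Algebra.smul_def, map_natCast, map_pow, map_mul]
      ring
    rw [h1, h2, h3, map_sum]
    apply Finset.sum_congr rfl
    intro l _
    rw [map_smul, smul_eq_mul, eval_mul, eval_mul, eval_C, eval_pow, eval_X, hq]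
    rfl
  have hid2 := mul_left_cancel₀ X_ne_zero hid
  have hdvd : X ^ (b - N) ∣ C f * X ^ lam := by
    rw [hid2]
    apply Finset.dvd_sum
    intro l hl
    rw [Finset.mem_range] at hl
    by_cases h1 : N < l
    · rw [hq0 l h1 (by omega), mul_zero]
      exact dvd_zero _
    · exact Dvd.dvd.mul_right (Dvd.dvd.mul_left (pow_dvd_pow X (by omega)) _) _
  have h5 : C f * X ^ lam = 0 := by
    apply Polynomial.eq_zero_of_dvd_of_natDegree_lt hdvd
    rw [natDegree_X_pow]
    exact lt_of_le_of_lt (natDegree_C_mul_X_pow_le _ _) (by omega)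
  have h6 := (mul_eq_zero.1 h5).resolve_right (pow_ne_zero _ X_ne_zero)
  exact C_eq_zero.1 h6

end Vale.Agent.P181Z
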