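import Vale.Agent.P181.H35.Inj
import Vale.Agent.P181.H421.Defs

set_option autoImplicit false

/-!
# The canonical map in the opposite direction is onto

If the canonical kernel of degree `a` on forms of degree `b` vanishes (for the dual space), then
the canonical map `Sym^b(Sym^a V) → Sym^a(Sym^b V)` is surjective.
-/

open scoped TensorProduct

namespace Vale.Agent.P181Z

open Vale.Agent.P181

universe u

noncomputable section

section Pair

variable {M : Type u} [AddCommGroup M] [Module ℂ M]

/-- The evaluation at a family of functionals, as a multilinear map of the family. -/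
def symEvalMul (n : ℕ) (M : Type u) [AddCommGroup M] [Module ℂ M] :
    MultilinearMap ℂ (fun _ : Fin n => Module.Dual ℂ M) (Module.Dual ℂ (Sym[ℂ]^n M)) :=
  ((symSum (Fin n) M).dualMap ∘ₗ
    (PiTensorProduct.dualDistrib (R := ℂ) (M := fun _ : Fin n => M))).compMultilinearMap
      (PiTensorProduct.tprod ℂ)

lemma symEvalMul_apply (n : ℕ) (lam : Fin n → Module.Dual ℂ M) :
    symEvalMul n M lam = symEval lam := rfl

lemma symEval_perm (n : ℕ) (e : Equiv.Perm (Fin n)) (lam : Fin n → Module.Dual ℂ M) :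
    (symEval (fun i => lam (e i)) : (Sym[ℂ]^n M) →ₗ[ℂ] ℂ) = symEval lam := by
  apply sym_hom_ext
  intro v
  rw [symEval_tprod, symEval_tprod]
  rw [← Equiv.sum_comp (Equiv.mulRight e)
    (fun σ : Equiv.Perm (Fin n) => ∏ i, lam (e i) (v (σ i)))]
  apply Finset.sum_congr rfl
  intro σ _
  exact Equiv.prod_comp e (fun i => lam i (v (σ i)))

/-- The pairing `Sym^n (M^*) → (Sym^n M)^*`. -/
def symPair (n : ℕ) (M : Type u) [AddCommGroup M] [Module ℂ M] :
    Sym[ℂ]^n (Module.Dual ℂ M) →ₗ[ℂ] Module.Dual ℂ (Sym[ℂ]^n M) :=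
  symLift (symEvalMul n M) (fun e lam => symEval_perm n e lam)

lemma symPair_tprod (n : ℕ) (lam : Fin n → Module.Dual ℂ M) :
    symPair n M (SymmetricPower.tprod ℂ lam) = symEval lam :=
  symLift_tprod _ _ lam

lemma span_eq_top_of_separates {N : Type u} [AddCommGroup N] [Module ℂ N]
    [FiniteDimensional ℂ N] (W : Submodule ℂ (Module.Dual ℂ N))
    (h : ∀ y : N, (∀ φ ∈ W, φ y = 0) → y = 0) : W = ⊤ := by
  have h1 : W.dualCoannihilator = ⊥ := by
    rw [eq_bot_iff]
    intro y hy
    rw [Submodule.mem_dualCoannihilator] at hy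
    rw [Submodule.mem_bot]
    exact h y hy
  have h2 := Subspace.dualCoannihilator_dualAnnihilator_eq (W := W)
  rw [h1] at h2
  rw [← h2]
  exact Submodule.dualAnnihilator_bot

end Pair

variable {V : Type u} [AddCommGroup V] [Module ℂ V] [FiniteDimensional ℂ V]

/-- The pairing `Sym^a(Sym^b (V^*)) → (Sym^a(Sym^b V))^*`. -/
def pair2 (a b : ℕ) (V : Type u) [AddCommGroup V] [Module ℂ V] :
    Sym[ℂ]^a (Sym[ℂ]^b (Module.Dual ℂ V)) →ₗ[ℂ] Module.Dual ℂ (Sym[ℂ]^a (Sym[ℂ]^b V)) :=
  symPair a (Sym[ℂ]^b V) ∘ₗ symMap a (symPair b V)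

omit [FiniteDimensional ℂ V] in
lemma pair2_pure (a b : ℕ) (ξ : Fin a → Fin b → Module.Dual ℂ V) :
    pair2 a b V (SymmetricPower.tprod ℂ (fun i => SymmetricPower.tprod ℂ (ξ i))) =
      symEval (fun i => (symEval (ξ i) : (Sym[ℂ]^b V) →ₗ[ℂ] ℂ)) := by
  rw [pair2, LinearMap.comp_apply, symMap_tprod, symPair_tprod]
  simp only [symPair_tprod]

lemma span_symEval (b : ℕ) :
    Submodule.span ℂ (Set.range (fun ξ : Fin b → Module.Dual ℂ V =>
      (symEval ξ : (Sym[ℂ]^b V) →ₗ[ℂ] ℂ))) = (⊤ : Submodule ℂ (Module.Dual ℂ (Sym[ℂ]^b V))) := by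
  apply span_eq_top_of_separates
  intro y hy
  apply symEval_separates Set.univ Submodule.span_univ
  intro lam _
  exact hy _ (Submodule.subset_span ⟨lam, rfl⟩)

lemma pair2_surjective (a b : ℕ) : Function.Surjective (pair2 a b V) := by
  rw [← LinearMap.range_eq_top]
  apply span_eq_top_of_separates
  intro y hy
  apply symEval_separates _ (span_symEval (V := V) b)
  intro lam hlam
  choose ξ hξ using hlam
  have hlam' : lam = fun i => symEval (ξ i) := by
    funext i; exact (hξ i).symm
  rw [hlam', ← pair2_pure]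
  exact hy _ (LinearMap.mem_range_self _ _)

/-- An element is zero as soon as its image under the canonical map vanishes at all products of
powers of functionals. -/
theorem eq_zero_of_noKer {a b : ℕ} (hab : H780.NoKer (linFun V) a b)
    (x : Sym[ℂ]^a (Sym[ℂ]^b V))
    (hx : ∀ ξ : Fin b → Module.Dual ℂ V,
      symEval (fun j => evalPow a (ξ j)) (foulkesHowe a b V x) = 0) : x = 0 := by
  classical
  have hxs : x ∈ Submodule.span ℂ (Set.range (fun v : Fin a → Fin b → V =>
      SymmetricPower.tprod ℂ (fun i => SymmetricPower.tprod ℂ (v i)))) := by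
    rw [span_pure]; trivial
  rw [Finsupp.mem_span_range_iff_exists_finsupp] at hxs
  obtain ⟨l, hl⟩ := hxs
  rw [Finsupp.sum] at hl
  let F : MultilinearMap ℂ (fun _ : Fin a => (V → ℂ)) ℂ := ∑ v ∈ l.support, l v • rowForm v
  have hF : ∀ P, F P = ∑ v ∈ l.support, l v * ∑ σ : Equiv.Perm (Fin a),
      ∏ i, ryser (v (σ i)) (P i) := by
    intro P
    simp only [sum_apply, smul_apply, rowForm_apply, smul_eq_mul, F]
  have hsymm : IsSymm F := by
    intro τ P
    simp only [F, sum_apply, smul_apply]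
    apply Finset.sum_congr rfl
    intro v _
    rw [rowForm_symm v τ P]
  have hK : IsK (linFun V) b F := by
    intro m hm hmL
    obtain ⟨f, hf⟩ := exists_fin_map m b hm
    have hfL : ∀ j, ∃ ξ : Module.Dual ℂ V, f j = fun v => ξ v := by
      intro j
      apply hmL
      rw [hf]
      exact Multiset.mem_map_of_mem f (Finset.mem_univ_val j)
    choose ξ hξ using hfL
    have hmp : m.prod = ∏ j, (fun v => ξ j v) := by
      rw [hf]
      exact Finset.prod_congr rfl (fun j _ => hξ j)
    have h1 := hx ξ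
    rw [← hl, map_sum, map_sum] at h1
    simp only [map_smul, symEval_foulkesHowe, smul_eq_mul] at h1
    rw [hF, hmp]
    have h2 : ∀ v : Fin a → Fin b → V, ∑ σ : Equiv.Perm (Fin a),
        ∏ i, ryser (v (σ i)) (∏ j, (fun v => ξ j v)) =
        (Fintype.card (Equiv.Perm (Fin a)) : ℂ) *
          ∏ i, ryser (v i) (∏ j, (fun v => ξ j v)) := by
      intro v
      have h3 : ∀ σ : Equiv.Perm (Fin a), ∏ i, ryser (v (σ i)) (∏ j, (fun v => ξ j v)) =
          ∏ i, ryser (v i) (∏ j, (fun v => ξ j v)) := fun σ =>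
        Equiv.prod_comp σ (fun i => ryser (v i) (∏ j, (fun v => ξ j v)))
      rw [Finset.sum_congr rfl (fun σ _ => h3 σ), Finset.sum_const, nsmul_eq_mul,
        Finset.card_univ]
    simp only [h2]
    have h4 : (Fintype.card (Equiv.Perm (Fin b)) : ℂ) ≠ 0 := by
      exact_mod_cast Fintype.card_ne_zero
    have h5 : (Fintype.card (Equiv.Perm (Fin b)) : ℂ) *
        ∑ v ∈ l.support, l v * ∏ i, ryser (v i) (∏ j, (fun v => ξ j v)) = 0 := by
      rw [← h1, Finset.mul_sum]
      apply Finset.sum_congr rfl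
      intro v _
      ring
    have h6 := (mul_eq_zero.1 h5).resolve_left h4
    calc _ = (Fintype.card (Equiv.Perm (Fin a)) : ℂ) *
        ∑ v ∈ l.support, l v * ∏ i, ryser (v i) (∏ j, (fun v => ξ j v)) := by
          rw [Finset.mul_sum]
          apply Finset.sum_congr rfl
          intro v _
          ring
      _ = 0 := by rw [h6, mul_zero]
  have hcore := hab F hsymm hK
  apply symEval_separates _ (span_symEval (V := V) b)
  intro lam hlam
  choose ξ hξ using hlam
  have hlam' : lam = fun i => symEval (ξ i) := by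
    funext i; exact (hξ i).symm
  rw [hlam', ← hl, map_sum]
  have h7 := hcore (fun i => ∏ j, (fun v => ξ i j v)) (by
    intro i
    exact prod_mem_pow _ _ (fun j => ⟨ξ i j, rfl⟩))
  rw [← h7, hF]
  apply Finset.sum_congr rfl
  intro v _
  rw [map_smul, smul_eq_mul, symEval_tprod]
  congr 1
  apply Finset.sum_congr rfl
  intro σ _
  apply Finset.prod_congr rfl
  intro i _
  rw [symEval_tprod, ryser_prod]

/-- The canonical map on a product of pure powers. -/
lemma foulkesHowe_powers (a b : ℕ) (w : Fin b → V) :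
    foulkesHowe b a V (SymmetricPower.tprod ℂ (fun j => SymmetricPower.tprod ℂ
      (fun _ : Fin a => w j))) =
      (Fintype.card (Fin b → Equiv.Perm (Fin a)) : ℂ) •
        SymmetricPower.tprod ℂ (fun _ : Fin a => SymmetricPower.tprod ℂ w) := by
  rw [foulkesHowe_tprod b a (fun j _ => w j), Finset.sum_const, Finset.card_univ,
    Nat.cast_smul_eq_nsmul]

/-- The two canonical maps are adjoint. -/
lemma adjoint (a b : ℕ) (w : Fin b → V) (x : Sym[ℂ]^a (Sym[ℂ]^b (Module.Dual ℂ V))) :
    ((Fintype.card (Fin b → Equiv.Perm (Fin a)) : ℂ) * (Fintype.card (Equiv.Perm (Fin a)) : ℂ)) *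
      symEval (fun j => evalPow a (Module.Dual.eval ℂ V (w j)))
        (foulkesHowe a b (Module.Dual ℂ V) x) =
    (Fintype.card (Equiv.Perm (Fin b)) : ℂ) * pair2 a b V x
      (foulkesHowe b a V (SymmetricPower.tprod ℂ (fun j => SymmetricPower.tprod ℂ
        (fun _ : Fin a => w j)))) := by
  classical
  let y := foulkesHowe b a V (SymmetricPower.tprod ℂ (fun j => SymmetricPower.tprod ℂ
        (fun _ : Fin a => w j)))
  let f : Sym[ℂ]^a (Sym[ℂ]^b (Module.Dual ℂ V)) →ₗ[ℂ] ℂ :=
    ((Fintype.card (Fin b → Equiv.Perm (Fin a)) : ℂ) *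
      (Fintype.card (Equiv.Perm (Fin a)) : ℂ)) •
      (symEval (fun j => evalPow a (Module.Dual.eval ℂ V (w j))) ∘ₗ
        foulkesHowe a b (Module.Dual ℂ V))
  let g : Sym[ℂ]^a (Sym[ℂ]^b (Module.Dual ℂ V)) →ₗ[ℂ] ℂ :=
    (Fintype.card (Equiv.Perm (Fin b)) : ℂ) •
      (Module.Dual.eval ℂ (Sym[ℂ]^a (Sym[ℂ]^b V)) y ∘ₗ pair2 a b V)
  have hfg : f = g := by
    apply pure_hom_ext
    intro ξ
    simp only [f, g, y, LinearMap.smul_apply, LinearMap.comp_apply, smul_eq_mul,
      Module.Dual.eval_apply]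
    rw [symEval_foulkesHowe, pair2_pure, foulkesHowe_powers, map_smul, symEval_tprod,
      Finset.sum_const, Finset.card_univ, nsmul_eq_mul, smul_eq_mul]
    have h1 : ∀ i, ryser (ξ i) (∏ j, fun v => (Module.Dual.eval ℂ V (w j)) v) =
        symEval (ξ i) (SymmetricPower.tprod ℂ w) := by
      intro i
      rw [ryser_prod, symEval_tprod]
      rw [← Equiv.sum_comp (Equiv.inv (Equiv.Perm (Fin b)))]
      apply Finset.sum_congr rfl
      intro e _
      rw [← Equiv.prod_comp e]
      apply Finset.prod_congr rfl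
      intro j _
      simp
    simp only [h1]
    ring
  exact LinearMap.congr_fun hfg x

/-- **The canonical map in the opposite direction is onto.** -/
theorem foulkesHowe_surjective_of_noKer {a b : ℕ}
    (hab : H780.NoKer (linFun (Module.Dual ℂ V)) a b) :
    Function.Surjective (foulkesHowe b a V) := by
  rw [← LinearMap.dualMap_injective_iff, injective_iff_map_eq_zero]
  intro φ hφ
  obtain ⟨x, rfl⟩ := pair2_surjective a b φ
  have hx : x = 0 := by
    apply eq_zero_of_noKer hab
    intro ξ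
    have hw : ∀ j, ∃ w : V, Module.Dual.eval ℂ V w = ξ j := fun j =>
      (Module.bijective_dual_eval ℂ V).2 (ξ j)
    choose w hw using hw
    have hξ : ξ = fun j => Module.Dual.eval ℂ V (w j) := by
      funext j; exact (hw j).symm
    have h1 := adjoint a b w x
    have h2 : pair2 a b V x (foulkesHowe b a V (SymmetricPower.tprod ℂ
        (fun j => SymmetricPower.tprod ℂ (fun _ : Fin a => w j)))) = 0 :=
      LinearMap.congr_fun hφ _
    rw [h2, mul_zero] at h1
    have h3 : ((Fintype.card (Fin b → Equiv.Perm (Fin a)) : ℂ) *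
        (Fintype.card (Equiv.Perm (Fin a)) : ℂ)) ≠ 0 := by
      apply mul_ne_zero <;> exact_mod_cast Fintype.card_ne_zero
    rw [hξ]
    exact (mul_eq_zero.1 h1).resolve_left h3
  rw [hx, map_zero]

end

end Vale.Agent.P181Z
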