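import Vale.Agent.P181Z.Near2
import Vale.Agent.P181Z.Surj
import Vale.Agent.P181.H280.Defs

set_option autoImplicit false

/-!
# The kernel of the canonical map just below the square consists of tall shapes
-/

open scoped TensorProduct

namespace Vale.Agent.P181Z

open Vale.Agent.P181 Vale.Agent.P181.H280

universe u

noncomputable section

section General

variable {V : Type u} [AddCommGroup V] [Module ℂ V] [FiniteDimensional ℂ V]

/-- The symmetric form of an element of the kernel of the canonical map. -/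
lemma exists_form {a b : ℕ} (x : Sym[ℂ]^a (Sym[ℂ]^b V)) (hx : foulkesHowe a b V x = 0) :
    ∃ F : MultilinearMap ℂ (fun _ : Fin a => (V → ℂ)) ℂ, IsSymm F ∧ IsK (linFun V) b F ∧
      ∀ ξ : Fin a → Fin b → Module.Dual ℂ V, F (fun i => ∏ j, (fun v => ξ i j v)) =
        symEval (fun i => (symEval (ξ i) : (Sym[ℂ]^b V) →ₗ[ℂ] ℂ)) x := by
  classical
  have hxs : x ∈ Submodule.span ℂ (Set.range (fun v : Fin a → Fin b → V =>
      SymmetricPower.tprod ℂ (fun i => SymmetricPower.tprod ℂ (v i)))) := by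
    rw [span_pure]; trivial
  rw [Finsupp.mem_span_range_iff_exists_finsupp] at hxs
  obtain ⟨l, hl⟩ := hxs
  rw [Finsupp.sum] at hl
  let F : MultilinearMap ℂ (fun _ : Fin a => (V → ℂ)) ℂ := ∑ v ∈ l.support, l v • rowForm v
  have hF : ∀ P, F P = ∑ v ∈ l.support, l v * ∑ σ : Equiv.Perm (Fin a),
      ∏ i, ryser (v (σ i)) (P i) := by
    intro P
    simp only [sum_apply, smul_apply, rowForm_apply, smul_eq_mul, F]
  refine ⟨F, ?_, ?_, ?_⟩
  · intro τ P
    simp only [F, sum_apply, smul_apply]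
    apply Finset.sum_congr rfl
    intro v _
    rw [rowForm_symm v τ P]
  · intro m hm hmL
    obtain ⟨f, hf⟩ := exists_fin_map m b hm
    have hfL : ∀ j, ∃ ξ : Module.Dual ℂ V, f j = fun v => ξ v := by
      intro j
      apply hmL
      rw [hf]
      exact Multiset.mem_map_of_mem f (Finset.mem_univ_val j)
    choose ξ hξ using hfL
    have hmp : m.prod = ∏ j, (fun v => ξ j v) := by
      rw [hf]
      exact Finset.prod_congr rfl (fun j _ => hξ j)
    have h1 : symEval (fun j => evalPow a (ξ j)) (foulkesHowe a b V x) = 0 := by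
      rw [hx, map_zero]
    rw [← hl, map_sum, map_sum] at h1
    simp only [map_smul, symEval_foulkesHowe, smul_eq_mul] at h1
    rw [hF, hmp]
    have h2 : ∀ v : Fin a → Fin b → V, ∑ σ : Equiv.Perm (Fin a),
        ∏ i, ryser (v (σ i)) (∏ j, (fun v => ξ j v)) =
        (Fintype.card (Equiv.Perm (Fin a)) : ℂ) *
          ∏ i, ryser (v i) (∏ j, (fun v => ξ j v)) := by
      intro v
      have h3 : ∀ σ : Equiv.Perm (Fin a), ∏ i, ryser (v (σ i)) (∏ j, (fun v => ξ j v)) =
          ∏ i, ryser (v i) (∏ j, (fun v => ξ j v)) := fun σ =>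
        Equiv.prod_comp σ (fun i => ryser (v i) (∏ j, (fun v => ξ j v)))
      rw [Finset.sum_congr rfl (fun σ _ => h3 σ), Finset.sum_const, nsmul_eq_mul,
        Finset.card_univ]
    simp only [h2]
    have h4 : (Fintype.card (Equiv.Perm (Fin b)) : ℂ) ≠ 0 := by
      exact_mod_cast Fintype.card_ne_zero
    have h5 : (Fintype.card (Equiv.Perm (Fin b)) : ℂ) *
        ∑ v ∈ l.support, l v * ∏ i, ryser (v i) (∏ j, (fun v => ξ j v)) = 0 := by
      rw [← h1, Finset.mul_sum]
      apply Finset.sum_congr rfl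
      intro v _
      ring
    have h6 := (mul_eq_zero.1 h5).resolve_left h4
    calc _ = (Fintype.card (Equiv.Perm (Fin a)) : ℂ) *
        ∑ v ∈ l.support, l v * ∏ i, ryser (v i) (∏ j, (fun v => ξ j v)) := by
          rw [Finset.mul_sum]
          apply Finset.sum_congr rfl
          intro v _
          ring
      _ = 0 := by rw [h6, mul_zero]
  · intro ξ
    rw [← hl, map_sum, hF]
    apply Finset.sum_congr rfl
    intro v _
    rw [map_smul, smul_eq_mul, symEval_tprod]
    congr 1
    apply Finset.sum_congr rfl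
    intro σ _
    apply Finset.prod_congr rfl
    intro i _
    rw [symEval_tprod, ryser_prod]

lemma eq_zero_of_form {a b : ℕ} (x : Sym[ℂ]^a (Sym[ℂ]^b V))
    (F : MultilinearMap ℂ (fun _ : Fin a => (V → ℂ)) ℂ)
    (hF : ∀ ξ : Fin a → Fin b → Module.Dual ℂ V, F (fun i => ∏ j, (fun v => ξ i j v)) =
        symEval (fun i => (symEval (ξ i) : (Sym[ℂ]^b V) →ₗ[ℂ] ℂ)) x)
    (h : ∀ P : Fin a → (V → ℂ), (∀ i, P i ∈ linFun V ^ b) → F P = 0) : x = 0 := by
  apply symEval_separates _ (span_symEval (V := V) b)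
  intro lam hlam
  choose ξ hξ using hlam
  have hlam' : lam = fun i => symEval (ξ i) := by
    funext i; exact (hξ i).symm
  rw [hlam', ← hF]
  exact h _ (fun i => prod_mem_pow _ _ (fun j => ⟨ξ i j, rfl⟩))

omit [FiniteDimensional ℂ V] in
lemma symEval_symMap {a b : ℕ} (g : V →ₗ[ℂ] V) (ξ : Fin a → Fin b → Module.Dual ℂ V)
    (x : Sym[ℂ]^a (Sym[ℂ]^b V)) :
    symEval (fun i => (symEval (ξ i) : (Sym[ℂ]^b V) →ₗ[ℂ] ℂ)) (symMap a (symMap b g) x) =
      symEval (fun i => (symEval (fun j => ξ i j ∘ₗ g) : (Sym[ℂ]^b V) →ₗ[ℂ] ℂ)) x := by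
  classical
  have h : symEval (fun i => (symEval (ξ i) : (Sym[ℂ]^b V) →ₗ[ℂ] ℂ)) ∘ₗ symMap a (symMap b g) =
      symEval (fun i => (symEval (fun j => ξ i j ∘ₗ g) : (Sym[ℂ]^b V) →ₗ[ℂ] ℂ)) := by
    apply pure_hom_ext
    intro v
    rw [LinearMap.comp_apply, symMap_tprod, symEval_tprod, symEval_tprod]
    apply Finset.sum_congr rfl
    intro e _
    apply Finset.prod_congr rfl
    intro i _
    rw [symMap_tprod, symEval_tprod, symEval_tprod]
    rfl
  exact LinearMap.congr_fun h x

end General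

lemma exists_relation {n : ℕ} (i₀ : Fin (n + 2))
    (u : Fin (n + 2) → Module.Dual ℂ (Fin (n + 2) → ℂ))
    (hu : ∀ j, u j (Pi.single i₀ 1) = 0) :
    ∃ (j₀ : Fin (n + 2)) (s : Fin (n + 2) → ℂ), u j₀ = ∑ j ∈ Finset.univ.erase j₀, s j • u j := by
  have hdep : ¬ LinearIndependent ℂ u := by
    intro h
    have h1 := h.span_eq_top_of_card_eq_finrank (by
      rw [Subspace.dual_finrank_eq, Module.finrank_fin_fun, Fintype.card_fin])
    have h2 : Submodule.span ℂ (Set.range u) ≤
        LinearMap.ker (Module.Dual.eval ℂ (Fin (n + 2) → ℂ) (Pi.single i₀ 1)) := by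
      rw [Submodule.span_le]
      rintro _ ⟨j, rfl⟩
      exact hu j
    rw [h1] at h2
    have h3 := h2 (Submodule.mem_top (x := (LinearMap.proj i₀ : Module.Dual ℂ (Fin (n + 2) → ℂ))))
    rw [LinearMap.mem_ker, Module.Dual.eval_apply, LinearMap.proj_apply, Pi.single_eq_same] at h3
    exact one_ne_zero h3
  rw [Fintype.not_linearIndependent_iff] at hdep
  obtain ⟨g, hg, j₀, hj₀⟩ := hdep
  refine ⟨j₀, fun j => -(g j₀)⁻¹ * g j, ?_⟩
  rw [← Finset.add_sum_erase _ _ (Finset.mem_univ j₀)] at hg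
  have h1 : g j₀ • u j₀ = -∑ j ∈ Finset.univ.erase j₀, g j • u j := eq_neg_of_add_eq_zero_left hg
  calc u j₀ = (g j₀)⁻¹ • (g j₀ • u j₀) := by rw [smul_smul, inv_mul_cancel₀ hj₀, one_smul]
    _ = _ := by
      rw [h1, smul_neg, ← neg_smul, Finset.smul_sum]
      apply Finset.sum_congr rfl
      intro j _
      rw [smul_smul]

/-- **The kernel consists of tall shapes.** For `a = n + 2`, `b + c = (a - 1) ^ 2`, `1 ≤ c ≤ a - 2`
the canonical map is injective on the highest weight vectors of weight `lam` in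
`Sym^a(Sym^b ℂ^a)` if some entry of `lam` is less than `b - (a - 1)(2 c - 2)`. -/
theorem inj_low {n b c : ℕ} (hbc : b + c = (n + 1) ^ 2) (hc : 1 ≤ c) (hcn : c ≤ n)
    (lam : Fin (n + 2) → ℕ) (i₀ : Fin (n + 2)) (hlt : lam i₀ + (n + 1) * (2 * c - 1 - 1) < b)
    (x : Sym[ℂ]^(n + 2) (Sym[ℂ]^b (Fin (n + 2) → ℂ)))
    (hx : x ∈ hwSpace lam (plethAct (n + 2) b (n + 2)))
    (h0 : foulkesHowe (n + 2) b (Fin (n + 2) → ℂ) x = 0) : x = 0 := by
  classical
  obtain ⟨F, hs, hK, hF⟩ := exists_form x h0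
  have hN := nil_of_isK (hasRoots_of_forall_field (linFun (Fin (n + 2) → ℂ))) hbc hc hcn hs hK
  refine eq_zero_of_form x F hF (zero_of_pow _ b F ?_)
  intro θ' hθ'
  choose θ hθ using hθ'
  let e : Module.Dual ℂ (Fin (n + 2) → ℂ) := LinearMap.proj i₀
  let w : Fin (n + 2) → Module.Dual ℂ (Fin (n + 2) → ℂ) := fun j => θ j (Pi.single i₀ 1) • e
  let u : Fin (n + 2) → Module.Dual ℂ (Fin (n + 2) → ℂ) := fun j => θ j - w j
  have hu0 : ∀ j, u j (Pi.single i₀ 1) = 0 := by
    intro j
    simp only [u, w, e, LinearMap.sub_apply, LinearMap.smul_apply, LinearMap.proj_apply,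
      Pi.single_eq_same, smul_eq_mul, mul_one, sub_self]
  obtain ⟨j₀, s, hrel⟩ := exists_relation i₀ u hu0
  have hpow : ∀ η : Fin (n + 2) → Module.Dual ℂ (Fin (n + 2) → ℂ),
      F (fun j => (fun v => η j v) ^ b) =
        symEval (fun i => (symEval (fun _ : Fin b => η i) :
          (Sym[ℂ]^b (Fin (n + 2) → ℂ)) →ₗ[ℂ] ℂ)) x := by
    intro η
    rw [← hF (fun i _ => η i)]
    congr 1
    funext j
    rw [Finset.prod_const, Finset.card_univ, Fintype.card_fin]
  have huw : ∀ j, ((fun v => u j v) + (fun v => w j v) : (Fin (n + 2) → ℂ) → ℂ) =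
      fun v => θ j v := by
    intro j
    funext v
    simp only [u, Pi.add_apply, LinearMap.sub_apply, sub_add_cancel]
  have key := weight_zero (by omega) hs hN (fun j v => u j v) (fun j v => w j v)
    (fun j => ⟨u j, rfl⟩) (fun j => ⟨w j, rfl⟩) j₀ s (by
      funext v
      rw [Finset.sum_apply]
      have h1 := LinearMap.congr_fun hrel v
      rw [LinearMap.sum_apply] at h1
      exact h1) (lam := lam i₀) ?_ hlt
  · simp only [huw] at key
    rw [← key]
    congr 1
    funext j
    rw [hθ j]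
  · intro τ hτ
    let g : Matrix (Fin (n + 2)) (Fin (n + 2)) ℂ := Matrix.diagonal (Function.update 1 i₀ τ)
    have hgd : ∀ i, g i i = Function.update (1 : Fin (n + 2) → ℂ) i₀ τ i :=
      fun i => Matrix.diagonal_apply_eq _ i
    have hg : IsBorel g := by
      refine ⟨fun i j hij => Matrix.diagonal_apply_ne _ hij.ne', fun i => ?_⟩
      rw [hgd]
      by_cases hi : i = i₀
      · rw [hi, Function.update_self]
        exact hτ
      · rw [Function.update_of_ne hi]
        exact one_ne_zero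
    have hprod : ∏ i, g i i ^ lam i = τ ^ lam i₀ := by
      rw [Finset.prod_eq_single i₀]
      · rw [hgd, Function.update_self]
      · intro i _ hi
        rw [hgd, Function.update_of_ne hi, Pi.one_apply, one_pow]
      · intro h
        exact absurd (Finset.mem_univ _) h
    have h2 : symMap (n + 2) (symMap b (Matrix.toLin' g)) x = (∏ i, g i i ^ lam i) • x := hx g hg
    have h3 := symEval_symMap (Matrix.toLin' g) (fun i (_ : Fin b) => θ i) x
    rw [h2, map_smul, hprod, smul_eq_mul, ← hpow θ, ← hpow (fun i => θ i ∘ₗ Matrix.toLin' g)] at h3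
    simp only [huw]
    rw [h3]
    congr 1
    funext j
    congr 1
    funext v
    have h4 : Matrix.toLin' g v = v + ((τ - 1) * v i₀) • Pi.single i₀ (1 : ℂ) := by
      funext i
      rw [Matrix.toLin'_apply, Matrix.mulVec_diagonal]
      by_cases hi : i = i₀
      · subst hi
        simp only [Function.update_self, Pi.add_apply, Pi.smul_apply, Pi.single_eq_same,
          smul_eq_mul]
        ring
      · simp only [Function.update_of_ne hi, Pi.one_apply, Pi.add_apply, Pi.smul_apply,
          Pi.single_eq_of_ne hi, smul_eq_mul]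
        ring
    simp only [u, w, e, Pi.add_apply, Pi.smul_apply, LinearMap.sub_apply, LinearMap.smul_apply,
      LinearMap.proj_apply, LinearMap.comp_apply, h4, map_add, map_smul, smul_eq_mul]
    ring

end

end Vale.Agent.P181Z
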