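import Vale.Agent.P181Z.Near3
import Vale.Agent.P181Z.Defs
import Vale.Agent.P181.TQ.Reduce
import Vale.Agent.P181.H536.HW
import Vale.Agent.P181.H530.Inj
import Vale.Agent.P181.H280.Final

set_option autoImplicit false

/-!
# Foulkes' conjecture for `b ≥ (a - 1) ^ 2 - (a - 3) / 2`
-/

open scoped TensorProduct

namespace Vale.Agent.P181Z

open Vale.Agent.P181 Vale.Agent.P181.H280 Vale.Agent.P181.H421

universe u

lemma tall_arith {n b c : ℕ} (hbc : b + c = (n + 1) ^ 2) (hc : 1 ≤ c) (hcn : 2 * c + 1 ≤ n) :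
    (n + 2) + b % (n + 2) + 2 * (b / (n + 2)) + (n + 1) * (2 * c - 1 - 1) ≤ b := by
  obtain ⟨d, rfl⟩ : ∃ d, c = d + 1 := ⟨c - 1, by omega⟩
  have h1 : 2 * (d + 1) - 1 - 1 = 2 * d := by omega
  rw [h1]
  rcases Nat.eq_zero_or_pos d with rfl | hd
  · have hb : b = (n + 2) * n := by nlinarith
    rw [hb, Nat.mul_mod_right, Nat.mul_div_cancel_left _ (by omega)]
    nlinarith
  · obtain ⟨e, rfl⟩ : ∃ e, n = 2 * d + 3 + e := ⟨n - (2 * d + 3), by omega⟩
    have hdm : b / (2 * d + 3 + e + 2) = 2 * d + 2 + e ∧ b % (2 * d + 3 + e + 2) = d + 5 + e := by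
      rw [Nat.div_mod_unique (by omega)]
      exact ⟨by nlinarith, by omega⟩
    rw [hdm.1, hdm.2]
    nlinarith

/-- Foulkes' inequality for `dim V = a`. -/
theorem mult_near {a b : ℕ} (hab : (a - 1) ^ 2 ≤ b + (a - 3) / 2) (lam : Fin a → ℕ) :
    plethMult a b a lam ≤ plethMult b a a lam := by
  by_cases h0 : (a - 1) ^ 2 ≤ b
  · exact finrank_le_of_inj (foulkesHowe a b (Fin a → ℂ)) _ _
      (fun x hx => H536.foulkesHowe_hwSpace lam x hx)
      (fun x _ h0' => (injective_iff_map_eq_zero _).1 (foulkesHowe_injective h0) x h0')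
  obtain ⟨n, rfl⟩ : ∃ n, a = n + 2 := ⟨a - 2, by omega⟩
  have h1 : n + 2 - 1 = n + 1 := rfl
  rw [h1] at hab h0
  obtain ⟨c, hbc⟩ : ∃ c, b + c = (n + 1) ^ 2 := ⟨(n + 1) ^ 2 - b, by omega⟩
  have hc : 1 ≤ c := by omega
  have hcn : 2 * c + 1 ≤ n := by omega
  by_cases hlow : ∃ i₀, lam i₀ + (n + 1) * (2 * c - 1 - 1) < b
  · obtain ⟨i₀, hi₀⟩ := hlow
    exact finrank_le_of_inj (foulkesHowe (n + 2) b (Fin (n + 2) → ℂ)) _ _
      (fun x hx => H536.foulkesHowe_hwSpace lam x hx)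
      (fun x hx h0' => inj_low hbc hc (by omega) lam i₀ hi₀ x hx h0')
  · push Not at hlow
    have h2 := tall_arith hbc hc hcn
    refine TQ.tallG (n + 2) b (n + 2) (by omega) (by nlinarith) le_rfl lam (fun i _ => ?_)
    have h3 := hlow i
    omega

theorem foulkes_near {a b : ℕ} (hab : (a - 1) ^ 2 ≤ b + (a - 3) / 2) :
    H530.FoulkesInjection.{u} a b ∧
      ∀ (n : ℕ) (lam : Fin n → ℕ), plethMult a b n lam ≤ plethMult b a n lam :=
  ⟨H530.foulkesInjection (fun lam _ _ => mult_near hab lam),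
    T7.all_n H530.pad_stmt H530.zero_stmt (fun lam _ _ => mult_near hab lam)⟩

/-- Both canonical maps from the vanishing of the canonical kernel. -/
theorem canonical_of_noKer {a b : ℕ}
    (h : ∀ (ι : Type u) (L : Submodule ℂ (ι → ℂ)), H780.NoKer L a b) :
    CanonicalInjective.{u} a b ∧ CanonicalSurjective.{u} b a :=
  ⟨fun V _ _ _ => ⟨foulkesHowe a b V, foulkesHowe_tprod a b, foulkesHowe_equivariant a b,
      H35.foulkesHowe_injective_of_noKer (h _ _)⟩,
    fun V _ _ _ => ⟨foulkesHowe b a V, foulkesHowe_tprod b a, foulkesHowe_equivariant b a,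
      foulkesHowe_surjective_of_noKer (h _ _)⟩⟩

theorem noKer_sq_odd {ι : Type u} (L : Submodule ℂ (ι → ℂ)) {a b : ℕ} (ha : Odd a)
    (hab : (a - 1) ^ 2 ≤ b + 1) : H780.NoKer L a b := by
  by_cases h0 : (a - 1) ^ 2 ≤ b
  · exact core2 (hasRoots_of_forall_field L) a b h0
  have h1 : 2 ≤ a := by
    by_contra h2
    have h3 : a - 1 = 0 := by omega
    rw [h3] at h0
    omega
  obtain ⟨n, rfl⟩ : ∃ n, a = n + 2 := ⟨a - 2, by omega⟩
  have h4 : n + 2 - 1 = n + 1 := rfl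
  rw [h4] at hab h0
  have hn : Odd n := by
    obtain ⟨t, ht⟩ := ha
    exact ⟨t - 1, by omega⟩
  exact noKer_odd (hasRoots_of_forall_field L) hn.pos (by omega) hn

end Vale.Agent.P181Z
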